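import Vale.Agent.P014T.La.Ec
import Vale.Agent.P014U.La.Gen

/-!
# P014U, block LAT: devissage and the invariance under isogenies
-/

set_option autoImplicit false
set_option linter.all false

noncomputable section

namespace Vale.Agent.P014U.La

open Module
open Vale.Agent.P022 Vale.Agent.P022K.G2
open X4F.Pr (F2)
open scoped Classical

export Vale.Agent.P014T.La (mu mu_comp lq_bij chi_comp)

variable [Pp] {X Y D : Type} [AddCommGroup X] [AddCommGroup Y] [AddCommGroup D]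

/-- the part of the kernel of order a power of `pp` -/
def Mk (π : X →+ Y) : AddSubgroup X where
  carrier := {x | Tw x ∧ π x = 0}
  zero_mem' := ⟨.zero, map_zero π⟩
  add_mem' a b := ⟨a.1.add b.1, by rw [map_add, a.2, b.2, add_zero]⟩
  neg_mem' a := ⟨a.1.map (negAddMonoidHom : X →+ X), by rw [map_neg, a.2, neg_zero]⟩

variable {ρ' : GQ → X →+ X} {ρ : GQ → Y →+ Y} {T : Finset ℕ} {k : GQ}

theorem p2_ne : pp ^ 2 ≠ 0 := pow_ne_zero 2 pp_ne

theorem ex_bas0 (W : Type) [AddCommGroup W] [Finite W] [Module F2 W] :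
    ∃ r, Nat.card W = pp ^ r ∧ Nonempty ((Fin r → F2) ≃+ W) :=
  have : Module.Finite F2 W := Module.Finite.of_finite
  ⟨finrank F2 W, (Module.natCard_eq_pow_finrank (K := F2) (V := W)).trans (by
    rw [Nat.card_zmod]), ⟨(Module.finBasis F2 W).equivFun.symm.toAddEquiv⟩⟩

theorem ex_bas (W : Type) [AddCommGroup W] [Finite W] (h : ∀ x : W, pp • x = 0) :
    ∃ r, Nat.card W = pp ^ r ∧ Nonempty ((Fin r → F2) ≃+ W) :=
  @ex_bas0 _ W _ _ (AddCommGroup.zmodModule h)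

theorem ec_aux (pr : ∀ l ∈ T, l.Prime) (h2 : pp ∈ T) (hk : IsConj k) (j : ℕ) :
    ∀ (X : Type) [AddCommGroup X] (ρ' : GQ → X →+ X) (π : X →+ Y)
      (e : ∀ g x, π (ρ' g x) = ρ g (π x)), Gm ρ' T → (∀ y, Tw y → ∃ x, Tw x ∧ π x = y) →
      (∀ x ∈ Mk π, pp ^ j • x = 0) → Finite ((mu X pp).ker ⊓ π.ker : AddSubgroup X) →
      Nat.card ((mu X pp).ker ⊓ π.ker : AddSubgroup X) ≤ pp ^ 2 →
      Rl ρ' T ((mu X pp).ker ⊓ π.ker : AddSubgroup X) → Ge (zm T k π e) (Nat.card (Mk π)) := by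
  induction j with
  | zero =>
    intro X _ ρ' π e hX sj hj _ _ rl
    have z : ∀ x ∈ Mk π, x = 0 := fun x m => (one_nsmul x).symm.trans (hj x m)
    rw [(AddSubgroup.eq_bot_iff_forall _).2 z, AddSubgroup.card_bot]
    exact base (n := Empty) (by simp) hX pr h2 hk π e sj 0 (fun _ _ _ => Subsingleton.elim _ _)
      (fun _ => map_zero π) (fun x a b => ⟨0, (z x ⟨a, b⟩).symm⟩)
      (rl.mono (by rintro _ ⟨v, rfl⟩; exact zero_mem ((mu X pp).ker ⊓ π.ker)))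
  | succ j ih =>
    intro X _ ρ' π e hX sj hj fW c4 rl
    set W := (mu X pp).ker ⊓ π.ker with hW
    have mW : ∀ {x}, x ∈ W ↔ pp • x = 0 ∧ π x = 0 := Iff.rfl
    have st : ∀ g, W ≤ W.comap (ρ' g) := fun g x m => mW.2 ⟨by
      rw [← map_nsmul, (mW.1 m).1, map_zero], by rw [e, (mW.1 m).2, map_zero]⟩
    let p := QuotientAddGroup.mk' W
    have p0 : ∀ {x}, p x = 0 ↔ x ∈ W := QuotientAddGroup.eq_zero_iff _
    have sp : Function.Surjective p := QuotientAddGroup.mk'_surjective W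
    let σ : GQ → X ⧸ W →+ X ⧸ W := fun g => QuotientAddGroup.map W W (ρ' g) (st g)
    let q : X ⧸ W →+ Y := QuotientAddGroup.lift W π inf_le_right
    have e1 : ∀ g x, p (ρ' g x) = σ g (p x) := fun _ _ => rfl
    have qp : ∀ x, q (p x) = π x := fun _ => rfl
    have e2 : ∀ g x, q (σ g x) = ρ g (q x) := fun g => sp.forall.2 fun x => e g x
    have tp : ∀ x, Tw (p x) → Tw x := fun x ⟨i, h⟩ =>
      .of_smul (.of_two (mW.1 (p0.1 ((map_nsmul p _ _).trans h))).1)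
    have hσ : Gm σ T := ⟨sp.forall.2 fun x => congrArg p (hX.one x),
      fun g h => sp.forall.2 fun x => congrArg p (hX.mul g h x),
      sp.forall.2 fun x => (hX.lc x).mono fun g h => congrArg p h,
      sp.forall.2 fun x t g m => congrArg p (hX.unr x (tp x t) g m)⟩
    obtain ⟨r, cW, ⟨b⟩⟩ := ex_bas W fun x => Subtype.ext (mW.1 x.2).1
    have u := base (n := Fin r) (by
        rw [Fintype.card_fin]
        exact (Nat.pow_le_pow_iff_right one_lt).1 (cW.ge.trans c4)) hX pr h2 hk p e1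
      (sp.forall.2 fun x t => ⟨x, tp x t, rfl⟩) (W.subtype.comp b.toAddMonoidHom)
      (Subtype.val_injective.comp b.injective) (fun v => p0.2 (b v).2)
      (fun x _ m => ⟨b.symm ⟨x, p0.1 m⟩, congrArg (·.1) (b.apply_symm_apply _)⟩)
      (rl.mono (by rintro _ ⟨v, rfl⟩; exact (b v).2))
    have m2 : ∀ x, p x ∈ (mu (X ⧸ W) pp).ker ⊓ q.ker → pp • x ∈ W := fun x m =>
      p0.1 ((map_nsmul p _ _).trans m.1)
    let d : ((mu (X ⧸ W) pp).ker ⊓ q.ker : AddSubgroup (X ⧸ W)) → W := fun y =>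
      ⟨pp • y.1.out, m2 _ (by rw [show p y.1.out = y.1 from y.1.out_eq']; exact y.2)⟩
    have id : Function.Injective d := fun y y' h => Subtype.ext (by
      rw [← y.1.out_eq', ← y'.1.out_eq', QuotientAddGroup.eq_iff_sub_mem]
      refine mW.2 ⟨by rw [nsmul_sub, sub_eq_zero]; exact congrArg (·.1) h, ?_⟩
      rw [map_sub, ← qp, ← qp, show p y.1.out = y.1 from y.1.out_eq',
        show p y'.1.out = y'.1 from y'.1.out_eq', show q y.1 = 0 from y.2.2,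
        show q y'.1 = 0 from y'.2.2, sub_self])
    have v := ih (X ⧸ W) σ q e2 hσ (fun y t => let ⟨x, a, b⟩ := sj y t; ⟨p x, a.map p, b⟩)
      (sp.forall.2 fun x m => (map_nsmul p _ _).symm.trans (p0.2 (mW.2 ⟨by
        rw [← mul_nsmul, ← pow_succ]; exact hj x ⟨tp x m.1, m.2⟩, by
        rw [map_nsmul, show π x = 0 from m.2, nsmul_zero]⟩)))
      (Finite.of_injective d id) ((Nat.card_le_card_of_injective d id).trans c4)
      (let ⟨l, a, b, Q, c, f⟩ := rl;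
        ⟨l, a, b, Q, c, fun g m => sp.forall.2 fun x hx => QuotientAddGroup.eq_iff_sub_mem.2
          (mW.2 ⟨by rw [nsmul_sub, ← map_nsmul, f g m _ (m2 x hx), sub_self], by
            rw [map_sub, e, show π x = 0 from hx.2, map_zero, sub_self]⟩)⟩)
    have w := u.comp v
    rwa [Fintype.card_fin, ← cW, show Nat.card W * Nat.card (Mk q) = Nat.card (Mk π) by
      rw [show Mk π = (Mk q).comap p from AddSubgroup.ext fun x =>
        ⟨fun m => ⟨m.1.map p, m.2⟩, fun m => ⟨tp x m.1, m.2⟩⟩, card_comap,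
        AddMonoidHom.range_eq_top.2 sp, inf_top_eq, kc, QuotientAddGroup.ker_mk']] at w

/-- **the Euler characteristic inequality** -/
theorem ec (hX : Gm ρ' T) (pr : ∀ l ∈ T, l.Prime) (h2 : pp ∈ T) (hk : IsConj k) (π : X →+ Y)
    (e : ∀ g x, π (ρ' g x) = ρ g (π x)) (sj : ∀ y, Tw y → ∃ x, Tw x ∧ π x = y)
    (f : Finite (Mk π)) (c0 : kc (mu X pp) ≠ 0) (c4 : kc (mu X pp) ≤ pp ^ 2) (rl : Rl ρ' T (mu X pp).ker) :
    Ge (zm T k π e) (Nat.card (Mk π)) := by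
  obtain ⟨j, hj⟩ := tw_fin (s := (Mk π : Set X)) (Set.toFinite _) fun _ m => m.1
  have := Nat.finite_of_card_ne_zero c0
  have i := AddSubgroup.inclusion_injective (inf_le_left : (mu X pp).ker ⊓ π.ker ≤ _)
  exact ec_aux pr h2 hk j X ρ' π e hX sj hj (Finite.of_injective _ i)
    ((Nat.card_le_card_of_injective _ i).trans c4) (rl.mono fun _ m => m.1)

theorem lq_pow {a : ℕ} (h : Lq (mu X pp) a) (v : ℕ) : Lq (mu X (pp ^ v)) (a ^ v) := by
  induction v with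
  | zero => exact lq_bij ⟨fun x y e => by simpa using e, fun x => ⟨x, one_nsmul x⟩⟩
  | succ v ih => rw [pow_succ, pow_succ, ← mu_comp]; exact ih.comp h

theorem odd_bij (t : ∀ x : X, Tw x) {m : ℕ} (o : ¬ pp ∣ m) : Function.Bijective (mu X m) :=
  ⟨(injective_iff_map_eq_zero _).2 fun x h => by
    obtain ⟨a, e⟩ := (t x).inv o
    rw [← e, smul_comm, show m • x = 0 from h, nsmul_zero], fun x => ((t x).inv o).elim
      fun a e => ⟨a • x, e⟩⟩

theorem kc_pow (dv : ∀ x : X, ∃ y, pp • y = x) (v : ℕ) : kc (mu X (pp ^ v)) = kc (mu X pp) ^ v := by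
  induction v with
  | zero =>
    rw [kc, (AddMonoidHom.ker_eq_bot_iff _).2 fun x y e => by simpa using e, AddSubgroup.card_bot,
      pow_zero]
  | succ v ih =>
    rw [pow_succ', pow_succ', ← mu_comp, ← ih]
    refine (card_comap (mu X pp) (mu X (pp ^ v)).ker).trans ?_
    rw [(AddMonoidHom.range_eq_top (f := mu X pp)).2 dv, inf_top_eq]
    rfl

theorem zf_tw (z : Zf ρ' T k) : Tw z := z.2.2.2.1.imp fun _ h => Subtype.ext (funext h)

/-- the corank is at least two -/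
theorem ge_two (hX : Gm ρ' T) (pr : ∀ l ∈ T, l.Prime) (h2 : pp ∈ T) (hk : IsConj k)
    (dv : ∀ x : X, ∃ y, pp • y = x) (c4 : kc (mu X pp) = pp ^ 2) (rl : Rl ρ' T (mu X pp).ker) :
    Ge (mu (Zf ρ' T k) pp) (pp ^ 2) := by
  have m : Mk (mu X pp) = (mu X pp).ker := AddSubgroup.ext fun x =>
    ⟨fun m => m.2, fun m => ⟨.of_two m, m⟩⟩
  have := ec hX pr h2 hk (mu X pp) (fun g x => (map_nsmul _ _ _).symm) (fun y t =>
    let ⟨x, e⟩ := dv y; ⟨x, .of_smul (j := 1) (by rwa [pow_one, e]), e⟩)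
    (m ▸ Nat.finite_of_card_ne_zero (c4.trans_ne p2_ne)) (c4.trans_ne p2_ne) c4.le rl
  rwa [m, show Nat.card (mu X pp).ker = pp ^ 2 from c4] at this

/-- **invariance under isogenies** -/
theorem lat (hX : Gm ρ' T) (hY : Gm ρ T) (pr : ∀ l ∈ T, l.Prime) (h2 : pp ∈ T) (hk : IsConj k)
    (φ : X →+ Y) (e : ∀ g x, φ (ρ' g x) = ρ g (φ x)) (sj : Function.Surjective φ) {m : ℕ}
    (m0 : m ≠ 0) (km : ∀ x, φ x = 0 → m • x = 0) (dv : ∀ x : X, ∃ y, pp • y = x)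
    (cX : kc (mu X pp) = pp ^ 2) (cY : kc (mu Y pp) = pp ^ 2) (rX : Rl ρ' T (mu X pp).ker)
    (rY : Rl ρ T (mu Y pp).ker)
    (cor : kc (mu (Zf ρ' T k) pp) ≤ pp ^ 2 * cc (mu (Zf ρ' T k) pp) ∨
      kc (mu (Zf ρ T k) pp) ≤ pp ^ 2 * cc (mu (Zf ρ T k) pp)) :
    Nat.card (Mk φ) ≠ 0 ∧ cc (zm T k φ e) ≠ 0 ∧
      kc (zm T k φ e) = Nat.card (Mk φ) * cc (zm T k φ e) ∧
      kc (mu (Zf ρ' T k) pp) = pp ^ 2 * cc (mu (Zf ρ' T k) pp) ∧
      kc (mu (Zf ρ T k) pp) = pp ^ 2 * cc (mu (Zf ρ T k) pp) := by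
  obtain ⟨v, o, od, rfl⟩ := Nat.exists_eq_pow_mul_and_not_dvd m0 pp one_lt.ne'
  let ψ : Y →+ X := φ.liftOfSurjective sj ⟨mu X (pp ^ v * o), km⟩
  have hψ : ∀ x, ψ (φ x) = (pp ^ v * o) • x := fun x =>
    AddMonoidHom.liftOfRightInverse_comp_apply _ _ _ _ x
  have e' : ∀ g y, ψ (ρ g y) = ρ' g (ψ y) := fun g => sj.forall.2 fun x => by
    rw [← e, hψ, hψ, map_nsmul]
  have s1 : ∀ y, Tw y → ∃ x, Tw x ∧ φ x = y := sj.forall.2 fun x t => by
    obtain ⟨a, h⟩ := t.inv od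
    obtain ⟨j, hj⟩ := t
    refine ⟨o • a • x, ⟨j + v, ?_⟩, by rw [map_nsmul, map_nsmul, h]⟩
    rw [smul_comm o, smul_comm _ a, ← mul_nsmul' x, pow_add, mul_assoc, mul_nsmul,
      km _ ((map_nsmul φ _ _).trans hj), nsmul_zero]
  have dp : ∀ (i : ℕ) (x : X), ∃ y, pp ^ i • y = x := fun i => by
    induction i with
    | zero => exact fun x => ⟨x, one_nsmul x⟩
    | succ i ih => exact fun x => let ⟨y, a⟩ := ih x; let ⟨z, b⟩ := dv y;
        ⟨z, by rw [pow_succ', mul_nsmul, b, a]⟩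
  have s2 : ∀ x, Tw x → ∃ y, Tw y ∧ ψ y = x := fun x t => by
    obtain ⟨a, h⟩ := t.inv od
    obtain ⟨y, b⟩ := dp v (a • x)
    exact ⟨φ y, (Tw.of_smul (b ▸ t.nsmul a)).map φ, by rw [hψ, mul_nsmul, b, h]⟩
  have cm : Nat.card (Mk φ) * Nat.card (Mk ψ) = (pp ^ 2) ^ v := by
    let f := φ.comp (Mk (0 : X →+ X)).subtype
    have := card_comap f (Mk ψ)
    rw [inf_eq_left.2 fun y hy => let ⟨x, a, b⟩ := s1 y hy.1; ⟨⟨x, a, rfl⟩, b⟩] at this
    rw [← cX, ← kc_pow dv, show Nat.card (Mk φ) = kc f from Nat.card_congr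
      ⟨fun x => ⟨⟨x.1, x.2.1, rfl⟩, x.2.2⟩, fun x => ⟨x.1.1, x.1.2.1, x.2⟩, fun _ => rfl,
        fun _ => rfl⟩, ← this]
    refine Nat.card_congr ⟨fun x => ⟨x.1.1, ?_⟩, fun x => ⟨⟨x.1, ⟨v, x.2⟩, rfl⟩,
      Tw.map φ ⟨v, x.2⟩, (hψ x.1).trans (by rw [mul_nsmul, show pp ^ v • x.1 = 0 from x.2,
        nsmul_zero])⟩, fun _ => rfl, fun _ => rfl⟩
    obtain ⟨a, h⟩ := (x.1.2.1.nsmul (pp ^ v)).inv od
    change pp ^ v • x.1.1 = 0
    rw [← h, smul_comm o, ← mul_nsmul x.1.1, ← hψ, show ψ (φ x.1.1) = 0 from x.2.2, nsmul_zero]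
  have n0 := cm.trans_ne (pow_ne_zero v p2_ne)
  have u := ec hX pr h2 hk φ e s1 (Nat.finite_of_card_ne_zero (left_ne_zero_of_mul n0))
    (cX.trans_ne p2_ne) cX.le rX
  have w := ec hY pr h2 hk ψ e' s2 (Nat.finite_of_card_ne_zero (right_ne_zero_of_mul n0))
    (cY.trans_ne p2_ne) cY.le rY
  have gX := ge_two hX pr h2 hk dv cX rX
  have gY := ge_two hY pr h2 hk (sj.forall.2 fun x => let ⟨y, a⟩ := dv x;
    ⟨φ y, by rw [← map_nsmul, a]⟩) cY rY
  have tr : kc (mu (Zf ρ' T k) pp) * cc (mu (Zf ρ T k) pp) =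
      kc (mu (Zf ρ T k) pp) * cc (mu (Zf ρ' T k) pp) := by
    have a := six (mu (Zf ρ' T k) pp) (zm T k φ e)
    have b := six (zm T k φ e) (mu (Zf ρ T k) pp)
    rw [← show (zm T k φ e).comp (mu _ pp) = (mu _ pp).comp (zm T k φ e) from
      AddMonoidHom.ext fun x => map_nsmul (zm T k φ e) pp x] at b
    refine mul_right_cancel₀ (mul_ne_zero u.k (gX.comp u).c) ?_
    calc _ = _ * cc (mu (Zf ρ T k) pp) := by rw [mul_right_comm, ← mul_assoc]
      _ = _ := congrArg (· * _) a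
      _ = _ * cc (mu (Zf ρ' T k) pp) := by ring
      _ = _ := congrArg (· * _) b.symm
      _ = _ := by ring
  have cr : kc (mu (Zf ρ' T k) pp) = pp ^ 2 * cc (mu (Zf ρ' T k) pp) ∧
      kc (mu (Zf ρ T k) pp) = pp ^ 2 * cc (mu (Zf ρ T k) pp) := by
    obtain c | c := cor
    · have c := le_antisymm c gX.le
      exact ⟨c, mul_right_cancel₀ gX.c (by rw [← tr, c]; ring)⟩
    · have c := le_antisymm c gY.le
      exact ⟨mul_right_cancel₀ gY.c (by rw [tr, c]; ring), c⟩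
  refine ⟨left_ne_zero_of_mul n0, u.c, (loop u w ?_).1, cr⟩
  rw [cm, show (zm T k ψ e').comp (zm T k φ e) = mu _ (pp ^ v * o) from
    AddMonoidHom.ext fun x => Subtype.ext (funext fun g => hψ _), ← mu_comp, ← mul_one ((pp ^ 2) ^ v)]
  exact (lq_pow ⟨gX.c, gX.k, cr.1.le⟩ v).comp (lq_bij (odd_bij zf_tw od))

end Vale.Agent.P014U.La
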