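import Vale.Agent.P014T.La.El
import Vale.Agent.P014U.La.Ec
import Vale.Agent.P014U.Pq.El
import Vale.Agent.P014U.Ki.Wp
import Vale.Agent.P014U.Ba.Min

/-!
# P014U, block LAT: isogenies on the Tate module, the pairing, the framed cocycles
-/

set_option autoImplicit false
set_option linter.all false

open scoped Classical

noncomputable section

namespace Vale.Agent.P014U.La

open Matrix
open Vale.Agent.P022 (Qb GQ IsConj)
open Vale.Agent.P022K.G2 (In)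
open X4M.TE hiding Qb GQ
open X4S.Ga (K O)
open X4F.Rc (mq mq_eq hn hn_mul)
open P027M.K P027H P004K P004K.Gm P014T.Ig P014T.Ig.Hm P014T.Hi
open Ki (dt wp wp_cp)
open Pq (io md_pow io_cp io_inj io_tors io_onto)

export Vale.Agent.P014T.La (ex_dual)

variable [Pp] {A B A' B' : ℤ} (hD : 4 * (A : ℚ) ^ 3 + 27 * (B : ℚ) ^ 2 ≠ 0)
  (hD' : 4 * (A' : ℚ) ^ 3 + 27 * (B' : ℚ) ^ 2 ≠ 0) (φ : Pt A B →+ Pt A' B')

/-- the matrix on the Tate modules -/
def mx : Matrix (Fin 2) (Fin 2) ℤ_[pp] := LinearMap.toMatrix (bs hD) (bs hD') (TM.map pp φ)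

/-- the determinant on the Tate modules -/
def dl : ℤ_[pp] := (mx hD hD' φ).det

theorem dt_map (s t : Tm (A : ℚ) (B : ℚ)) :
    dt hD' (TM.map pp φ s) (TM.map pp φ t) = dl hD hD' φ * dt hD s t := by
  have e := fun s => LinearMap.toMatrix_mulVec_repr (bs hD) (bs hD') (TM.map pp φ) s
  rw [dl, det_fin_two, dt, dt, ← e s, ← e t]
  change (mx hD hD' φ *ᵥ _) 0 * (mx hD hD' φ *ᵥ _) 1 -
    (mx hD hD' φ *ᵥ _) 1 * (mx hD hD' φ *ᵥ _) 0 = _
  simp only [mulVec, dotProduct, Fin.sum_univ_two]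
  ring

theorem io_map (j : ℕ) (v : Fin 2 → ZMod (pp ^ j)) :
    io hD' (md_pow j) ((mx hD hD' φ).map (PadicInt.toZModPow j) *ᵥ v) = φ (io hD (md_pow j) v) := by
  obtain ⟨t, rfl⟩ : ∃ t, (fun i => PadicInt.toZModPow j ((bs hD).repr t i)) = v :=
    ⟨_, (md_pow j).rp hD v⟩
  rw [io_cp, show φ (TM.cp j t) = TM.cp j (TM.map pp φ t) from rfl, ← io_cp hD' (md_pow j)]
  refine congrArg _ (funext fun i => ?_)
  rw [← congrFun (LinearMap.toMatrix_mulVec_repr (bs hD) (bs hD') (TM.map pp φ) t) i]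
  exact (RingHom.map_mulVec _ _ _ i).symm

variable {φ} {m : ℕ}

theorem mk_exp (m0 : m ≠ 0) (km : ∀ x, φ x = 0 → m • x = 0) :
    ∃ v, ∀ x ∈ Mk φ, pp ^ v • x = 0 := by
  obtain ⟨v, o, od, rfl⟩ := Nat.exists_eq_pow_mul_and_not_dvd m0 pp one_lt.ne'
  refine ⟨v, fun x a => ?_⟩
  obtain ⟨b, e⟩ := (a.1.nsmul (pp ^ v)).inv od
  rw [← e, smul_comm o, ← mul_nsmul x, km x a.2, nsmul_zero]

theorem dl_ne (m0 : m ≠ 0) (km : ∀ x, φ x = 0 → m • x = 0) : dl hD hD' φ ≠ 0 := fun z => by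
  obtain ⟨v, v0, e⟩ := exists_mulVec_eq_zero_iff.2 z
  obtain ⟨s, rfl⟩ := (bs hD).equivFun.surjective v
  have a : TM.map pp φ s = 0 := (bs hD').repr.injective (DFunLike.coe_injective
    ((LinearMap.toMatrix_mulVec_repr (bs hD) (bs hD') (TM.map pp φ) s).symm.trans
      (e.trans (by simp))))
  have b : (m : ℤ_[pp]) • s = 0 := TM.ext fun r => by
    rw [Nat.cast_smul_eq_nsmul, map_nsmul, km _ (congrArg (TM.cp r) a), map_zero]
  exact v0 (by rw [(smul_eq_zero.1 b).resolve_left (Nat.cast_ne_zero.2 m0), map_zero])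

/-- **the order of the kernel** -/
theorem mk_dl (m0 : m ≠ 0) (km : ∀ x, φ x = 0 → m • x = 0) :
    ‖dl hD hD' φ‖ * Nat.card (Mk φ) = 1 := by
  obtain ⟨v, hv⟩ := mk_exp m0 km
  have n := Ba.norm_val (dl_ne hD hD' m0 km)
  have k := Ba.card_kr _ n (Nat.le_add_left _ v)
  rw [← n, ← Nat.card_eq_of_bijective (β := Mk φ) (fun x : Ba.Kr ((mx hD hD' φ).map
    (PadicInt.toZModPow (v + (dl hD hD' φ).valuation))) => ⟨io hD (md_pow _) x.1,
      ⟨_, io_tors hD _ _⟩, by rw [← io_map hD hD', Ba.mem_Kr.1 x.2, map_zero]⟩)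
    ⟨fun x y e => Subtype.ext (io_inj hD _ (congrArg Subtype.val e)), fun x => ?_⟩, k]
  · norm_cast
  obtain ⟨y, e⟩ := io_onto hD (md_pow (v + (dl hD hD' φ).valuation)) (x := x.1)
    (by rw [pow_add, mul_nsmul, hv _ x.2, nsmul_zero])
  exact ⟨⟨y, io_inj hD' (md_pow _) (by rw [io_map, e, x.2.2, map_zero])⟩, Subtype.ext e⟩

theorem mk_card [Finite φ.ker] : Nat.card (Mk φ) = pp ^ padicValNat pp (Nat.card φ.ker) :=
  (Nat.card_congr ⟨fun x => ⟨⟨x.1, x.2.2⟩, x.2.1.imp fun _ => Subtype.ext⟩, fun x =>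
    ⟨x.1.1, x.2.imp fun _ => congrArg Subtype.val, x.1.2⟩, fun _ => rfl, fun _ => rfl⟩).trans
    (P014T.Lc.card_pp φ.ker pp)

theorem dl_nrm [Finite φ.ker] : ‖dl hD hD' φ‖ = ‖(Nat.card φ.ker : ℤ_[pp])‖ := by
  have n0 : Nat.card φ.ker ≠ 0 := Nat.card_pos.ne'
  have a := mk_dl hD hD' n0 fun x e =>
    congrArg Subtype.val (card_nsmul_eq_zero' (x := (⟨x, e⟩ : φ.ker)))
  have b := Ba.norm_val (x := Nat.card φ.ker) (Nat.cast_ne_zero.2 n0)
  rw [mk_card] at a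
  rw [show (Nat.card φ.ker : ℤ_[pp]).valuation = padicValNat pp (Nat.card φ.ker) by
    simp [PadicInt.valuation]] at b
  push_cast at a
  exact mul_right_cancel₀ (by have := pp_pos; positivity) (a.trans b.symm)

/-- **the adjoint**: `ψ` is the dual isogeny -/
theorem wp_adj [Finite φ.ker] (ψ : Pt A' B' →+ Pt A B)
    (e : ∀ y, φ (ψ y) = Nat.card φ.ker • y) : ∃ ε : ℤ_[pp]ˣ, ∀ (n : ℕ) a b, pp ^ n • a = 0 →
      pp ^ n • b = 0 → mq (wp hD' n a (φ b)) = mq ((ε : ℤ_[pp]) * wp hD n (ψ a) b) := by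
  have n0 : (Nat.card φ.ker : ℤ_[pp]) ≠ 0 := Nat.cast_ne_zero.2 Nat.card_pos.ne'
  have n1 : ((Nat.card φ.ker : ℤ_[pp]) : K) ≠ 0 := PadicInt.coe_ne_zero.2 n0
  have n2 : ‖(dl hD hD' φ : K) / (Nat.card φ.ker : ℤ_[pp])‖ = 1 := by
    rw [norm_div, PadicInt.padic_norm_e_of_padicInt, PadicInt.padic_norm_e_of_padicInt, dl_nrm,
      div_self (norm_ne_zero_iff.2 n0)]
  refine ⟨PadicInt.mkUnits n2, fun n a b p q => ?_⟩
  obtain ⟨s, rfl⟩ := TM.exists_cp (hdiv hD') p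
  obtain ⟨t, rfl⟩ := TM.exists_cp (hdiv hD) q
  have k := dt_map hD hD' φ (TM.map pp ψ s) t
  rw [show TM.map pp φ (TM.map pp ψ s) = (Nat.card φ.ker : ℤ_[pp]) • s from TM.ext fun r => by
    rw [Nat.cast_smul_eq_nsmul, map_nsmul]; exact e _] at k
  have k' : dt hD' s (TM.map pp φ t) = PadicInt.mkUnits n2 * dt hD (TM.map pp ψ s) t := by
    refine mul_left_cancel₀ n0 (.trans ?_ (k.trans (Subtype.ext ?_)))
    · simp only [dt, map_smul, Finsupp.smul_apply, smul_eq_mul]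
      ring
    · simp only [PadicInt.coe_mul, PadicInt.mkUnits_eq]
      field_simp
  refine (wp_cp hD' n s (TM.map pp φ t)).trans (mq_eq.2 ?_)
  have := X4S.Aq.O_mul (PadicInt.mkUnits n2 : ℤ_[pp]).2 (mq_eq.1 (wp_cp hD n (TM.map pp ψ s) t).symm)
  rw [k', PadicInt.coe_mul]
  exact X4S.Aq.O_of this (by rw [mul_sub, mul_left_comm]; rfl)

variable {T : Finset ℕ} {k : GQ}

include hD in
theorem gm_ga (bad : ∀ l : ℕ, l.Prime → (l : ℤ) ∣ 2 * pp * (4 * A ^ 3 + 27 * B ^ 2) → l ∈ T) :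
    Gm (fun g => (ga g : Pt A B →+ Pt A B)) T :=
  ⟨ga_one, ga_mul, fun x => (ev_ga 1 x).mono fun _ e => e.trans (ga_one x),
    fun x ⟨i, t⟩ g m => (Pq.ac_ga hD fun l p n b => n (bad l p b)).unr i x t g m⟩

include hD hD' in
/-- **invariance under isogenies of elliptic curves** -/
theorem latE (bad : ∀ l : ℕ, l.Prime → (l : ℤ) ∣ 2 * pp * (4 * A ^ 3 + 27 * B ^ 2) → l ∈ T)
    (bad' : ∀ l : ℕ, l.Prime → (l : ℤ) ∣ 2 * pp * (4 * A' ^ 3 + 27 * B' ^ 2) → l ∈ T)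
    (pr : ∀ l ∈ T, l.Prime) (hk : IsConj k) (e : ∀ g x, φ (ga g x) = ga g (φ x))
    (sj : Function.Surjective φ) (m0 : m ≠ 0) (km : ∀ x, φ x = 0 → m • x = 0)
    (r : Rl (X := Pt A B) (fun g => ga g) T (mu (Pt A B) pp).ker)
    (r' : Rl (X := Pt A' B') (fun g => ga g) T (mu (Pt A' B') pp).ker)
    (cor : kc (mu (Bt.Z0 A B T k) pp) ≤ pp ^ 2 * cc (mu (Bt.Z0 A B T k) pp)) :
    cc (zm T k φ e) ≠ 0 ∧ kc (zm T k φ e) = Nat.card (Mk φ) * cc (zm T k φ e) :=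
  let a := lat (gm_ga hD bad) (gm_ga hD' bad') pr (bad pp pp_prime ((dvd_mul_left _ _).mul_right _)) hk φ e sj
    m0 km (mul_surj two_ne_zero hD pp_ne) (card_mul two_ne_zero hD pp_ne)
    (card_mul two_ne_zero hD' pp_ne) r r'
    (.inl cor)
  ⟨a.2.1, a.2.2.1⟩

end Vale.Agent.P014U.La
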