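import Vale.Agent.P014T.La.Vel
import Vale.Agent.P014T.Ki.Odd
import Vale.Agent.P014U.Lc.Jx

/-!
# P014U, block LAT: the logarithm at `pp` and isogenies
-/

set_option autoImplicit false
set_option linter.all false

open scoped Classical NNReal
open Filter Topology NumberField P179W

noncomputable section

namespace Vale.Agent.P014U.La

open P027H P004K P004K.Gm P014T.Ig P014T.Ig.Hm P014T.Hi Lc
open P014T.Lc (sq_one)
open P027M.M (io)
open P004M.TE (Cv Pt ga pa pa_inj xp_pa)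
open Vale.Agent.P022 (Qb GQ)
open P004H.H666 (xp crv)
open Vale.Agent.P022D.W (dec inP_le_dec phi_mem exists_phi)
open P014T.Wm (Fx)
open Ah (Ind am)
open X4S.Ga (K)

export Vale.Agent.P014T.La (ker_iff xz x_lt velu)

variable [Pp]

theorem small {F : Type} [NormedField F] [IsUltrametricDist F] {E : WeierstrassCurve F}
    (hc : CoeffIn E {z | nv F z ≤ 1}) (h1 : ‖(pp : F)‖ < 1) {Q : E.toAffine.Point}
    (k : KerV (nv F) Q) {c : ℝ} (c0 : 0 < c) : ∃ n : ℕ, ‖zf (pp ^ n • Q)‖ ≤ c := by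
  let r := max (nv F pp) (nv F (zf Q))
  have r1 : r < 1 := max_lt h1 (zf_lt hc k)
  have a : ∀ n : ℕ, nv F (zf (pp ^ n • Q)) ≤ r ^ (n + 1) := fun n => by
    induction n with
    | zero => rw [pow_zero, one_smul, zero_add, pow_one]; exact le_max_right _ _
    | succ n ih =>
      have m := (P014T.Lc.E1 hc).nsmul_mem k (pp ^ n)
      rw [pow_succ' pp, mul_smul, ← sub_add_cancel (zf _) (pp * zf (pp ^ n • Q)), pow_succ' r]
      refine (nv F).map_add_le ((nsmul_le hc m pp).trans ?_) ?_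
      · rw [sq]
        exact mul_le_mul' (ih.trans (pow_le_of_le_one zero_le' r1.le n.succ_ne_zero)) ih
      · rw [map_mul]
        exact mul_le_mul' (le_max_left _ _) ih
  obtain ⟨n, hn⟩ := exists_pow_lt_of_lt_one c0 (show (r : ℝ) < 1 from r1)
  refine ⟨n, le_trans (show _ ≤ ((r ^ (n + 1) : ℝ≥0) : ℝ) from a n) (le_trans ?_ hn.le)⟩
  rw [NNReal.coe_pow]
  exact pow_le_pow_of_le_one r.2 r1.le n.le_succ

theorem ex_lam {Y : Type} [AddCommGroup Y] {l l' : Y →+ K} {c : K} (h : ∀ y, ‖l y‖ = ‖c‖ * ‖l' y‖) :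
    ∃ a : K, ‖a‖ = ‖c‖ ∧ ∀ y, l y = a * l' y := by
  by_cases e : ∀ y, l' y = 0
  · exact ⟨c, rfl, fun y => norm_eq_zero.1 (by rw [h, e, norm_zero, mul_zero]) |>.trans
      (by rw [e, mul_zero])⟩
  obtain ⟨x, x0⟩ := not_forall.1 e
  have n : ‖l x / l' x‖ = ‖c‖ := by rw [norm_div, h, mul_div_cancel_right₀ _ (norm_ne_zero_iff.2 x0)]
  refine ⟨_, n, fun y => sub_eq_zero.1 (norm_le_zero_iff.1 (le_of_forall_pos_le_add fun ε p => ?_))⟩
  obtain ⟨r, k⟩ := Padic.rat_dense pp (l' y / l' x) (ε := ε / (2 * ‖c‖ * ‖l' x‖ + 1)) (by positivity)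
  have d0 : (r.den : K) ≠ 0 := Nat.cast_ne_zero.2 r.den_nz
  have e1 : l' (r.den • y - r.num • x) = r.den * (l' x * (l' y / l' x - r)) := by
    rw [map_sub, map_nsmul, map_zsmul, nsmul_eq_mul, zsmul_eq_mul, Rat.cast_def]
    field_simp
  have e2 : r.den * (l y - l x / l' x * l' y) =
      l (r.den • y - r.num • x) - l x / l' x * l' (r.den • y - r.num • x) := by
    simp only [map_sub, map_nsmul, map_zsmul, nsmul_eq_mul, zsmul_eq_mul]
    field_simp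
    ring
  have := norm_sub_le (l (r.den • y - r.num • x)) (l x / l' x * l' (r.den • y - r.num • x))
  rw [← e2, h, norm_mul, norm_mul, n, e1, norm_mul, norm_mul] at this
  rw [lt_div_iff₀ (by positivity)] at k
  refine le_of_mul_le_mul_left (this.trans ?_) (norm_pos_iff.2 d0)
  rw [zero_add, ← two_mul, mul_left_comm ‖c‖, mul_left_comm]
  refine mul_le_mul_of_nonneg_left ?_ (norm_nonneg _)
  linarith [norm_nonneg (l' y / l' x - r)]

variable {Λ Λ' : Submodule ℤ ℂ} {A B A' B' : ℤ} {c : ℚ} {φ : Pt A' B' →+ Pt A B}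
  (h : IsLat Λ) (h2 : g2 Λ = -4 * A) (h3 : g3 Λ = -4 * B)
  (h' : IsLat Λ') (h2' : g2 Λ' = -4 * A') (h3' : g3 Λ' = -4 * B') (hc : c ≠ 0) (i : Iso c Λ' Λ φ)
include h h2 h3 h' h2' h3' hc i

/-- **the logarithm is multiplied by `c`** -/
theorem lg_iso {P : Ideal (𝓞 Qb)} {ι : Qb →+* ℂ_[pp]} (hι : Ind ι P) {lg : Fx A B (dec P) →+ K}
    {lg' : Fx A' B' (dec P) →+ K} (k : Lk ι lg) (k' : Lk ι lg') (y' : Fx A' B' (dec P))
    (y : Fx A B (dec P)) (e : y.1 = φ y'.1) : ‖lg y‖ = ‖(c : K)‖ * ‖lg' y'‖ := by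
  obtain ⟨J, _, T, κ, iT, sT, V⟩ := velu h h2 h3 h' h2' h3' hc i
  obtain ⟨L, hL⟩ := ex_lgs A B
  obtain ⟨L', hL'⟩ := ex_lgs A' B'
  let p' : Pt A' B' →+ _ := pa ι.toRatAlgHom
  have s := tendsto_pow_atTop_nhds_zero_of_lt_one (norm_nonneg (pp : K)) Padic.norm_p_lt_one
  have t0 : 0 < ‖((pp : ℕ) : ℂ_[pp])‖ := norm_pos_iff.2 (Nat.cast_ne_zero.2 pp_ne)
  obtain ⟨n, n1, n2, n3, n4⟩ := ((eventually_all.2 fun j => show ∀ᶠ n : ℕ in atTop, T j ≠ 0 →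
      KerV (nv ℂ_[pp]) (p' (T j)) → ‖(pp : K)‖ ^ n < ‖zf (p' (T j))‖ by
    by_cases a : T j ≠ 0 ∧ KerV (nv ℂ_[pp]) (p' (T j))
    · exact (s.eventually_lt_const (norm_pos_iff.2 fun z => a.1 (pa_inj _
        ((zf_eq_zero (cfs _ A' B') a.2 z).trans (map_zero _).symm)))).mono fun _ l _ _ => l
    · exact .of_forall fun _ a1 a2 => absurd ⟨a1, a2⟩ a).and ((s.eventually_lt_const t0).and
      ((((s.const_mul ‖(c : ℂ_[pp])‖).eventually_lt_const (by rwa [mul_zero]))).and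
        (((s.pow 2).const_mul ‖ι κ‖).eventually_lt_const (by simp : _ < (1 : ℝ)))))).exists
  obtain ⟨N, N0, a1, a2⟩ : ∃ N : ℕ, N ≠ 0 ∧ KerV (nv ℂ_[pp]) (p' (N • y'.1)) ∧
      ‖zf (p' (N • y'.1))‖ ≤ ‖(pp : K)‖ ^ n := by
    obtain ⟨M, M0, b⟩ := P014T.Ki.mul_k1 (hD_of h' h2' h3') hι.ov fun g hg => .inl (y'.2 g hg)
    rw [k1_iff hι] at b
    obtain ⟨m, c⟩ := small (cfs _ A' B') Ah.two_lt b
      (pow_pos (norm_pos_iff.2 (Nat.cast_ne_zero.2 pp_ne : (pp : K) ≠ 0)) n)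
    refine ⟨pp ^ m * M, mul_ne_zero (pow_ne_zero _ pp_ne) M0, ?_⟩
    rw [mul_smul, map_nsmul]
    exact ⟨(P014T.Lc.E1 (cfs _ A' B')).nsmul_mem b _, c⟩
  refine mul_left_cancel₀ (norm_ne_zero_iff.2 (Nat.cast_ne_zero.2 N0 : (N : K) ≠ 0)) ?_
  rw [mul_left_comm, ← norm_mul, ← norm_mul, ← nsmul_eq_mul, ← nsmul_eq_mul, ← map_nsmul,
    ← map_nsmul, ← Ah.nrm_am, ← Ah.nrm_am, ← Ah.nrm_am (lg' _), k L hL, k' L' hL', map_ratCast,
    AddSubgroup.coe_nsmul, AddSubgroup.coe_nsmul, e, ← map_nsmul φ]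
  generalize N • y'.1 = Y at a1 a2
  by_cases Y0 : Y = 0
  · simp [Y0]
  have Y1 : p' Y ≠ 0 := fun z => Y0 (pa_inj _ (z.trans (map_zero _).symm))
  have F0 : φ Y ≠ 0 := fun z => by
    obtain ⟨j, rfl⟩ := sT Y z
    exact (n1 j Y0 a1).not_ge a2
  have F1 : pa ι.toRatAlgHom (φ Y) ≠ 0 := fun z => F0 (pa_inj _ (z.trans (map_zero _).symm))
  obtain ⟨j, hj⟩ := sT 0 (map_zero φ)
  have x1 := xz (cfs _ A' B') a1 Y1
  have x0 := zero_lt_one.trans ((ker_iff Y1).1 a1)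
  have w : nv ℂ_[pp] c ^ 2 * nv ℂ_[pp] (xp (pa ι.toRatAlgHom (φ Y))) = nv ℂ_[pp] (xp (p' Y)) := by
    have := congrArg ι.toRatAlgHom (V Y F0)
    rw [map_mul, map_add, map_sum, ← xp_pa, map_pow, map_ratCast, ← Finset.add_sum_erase _ _
      (Finset.mem_univ j), hj, sub_zero, ← xp_pa, add_assoc] at this
    rw [← map_pow, ← map_mul, this]
    refine Valuation.map_add_eq_of_lt_left _ (Valuation.map_add_lt _ (Valuation.map_sum_lt _ x0.ne'
      fun l m => ?_) (lt_of_mul_lt_mul_right (a := nv ℂ_[pp] (zf (p' Y)) ^ 2) ?_ zero_le'))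
    · rw [← xp_pa, map_sub]
      exact x_lt (cfs _ A' B') a1 Y1 fun q => a2.trans_lt
        (n1 l (fun z => (Finset.mem_erase.1 m).1 (iT (z.trans hj.symm))) q)
    · rw [x1]
      exact (mul_le_mul_of_nonneg_left (pow_le_pow_left₀ (norm_nonneg _) a2 2)
        (norm_nonneg _)).trans_lt n4
  have w1 : nv ℂ_[pp] (xp (pa ι.toRatAlgHom (φ Y))) * (nv ℂ_[pp] c * nv ℂ_[pp] (zf (p' Y))) ^ 2 = 1 := by
    rw [← x1, ← w]; ring
  have l : nv ℂ_[pp] c * nv ℂ_[pp] (zf (p' Y)) < nv ℂ_[pp] (pp : ℕ) :=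
    (mul_le_mul_of_nonneg_left a2 (norm_nonneg _)).trans_lt n3
  have kF := (ker_iff F1).2 (not_le.1 fun q => (mul_lt_one_of_nonneg_of_lt_one_right q zero_le'
    (pow_lt_one₀ zero_le' (l.trans_le (natCast_mem (nv ℂ_[pp]).integer pp)) two_ne_zero)).ne w1)
  have z : nv ℂ_[pp] (zf (pa ι.toRatAlgHom (φ Y))) = nv ℂ_[pp] c * nv ℂ_[pp] (zf (p' Y)) :=
    sq_one (mul_left_cancel₀ (left_ne_zero_of_mul_eq_one w1)
      ((xz (cfs _ A B) kF F1).trans w1.symm))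
  rw [hL.norm (cfs _ A B) kF (z.trans_lt l), hL'.norm (cfs _ A' B') a1 (a2.trans_lt n2)]
  exact congrArg NNReal.toReal z

/-- the same with one constant -/
theorem lg_lam (e : ∀ g y, φ (ga g y) = ga g (φ y)) {P : Ideal (𝓞 Qb)} {ι : Qb →+* ℂ_[pp]}
    (hι : Ind ι P) {lg : Fx A B (dec P) →+ K} {lg' : Fx A' B' (dec P) →+ K} (k : Lk ι lg)
    (k' : Lk ι lg') : ∃ a : K, ‖a‖ = ‖(c : K)‖ ∧ ∀ (y' : Fx A' B' (dec P)) (y : Fx A B (dec P)),
      y.1 = φ y'.1 → lg y = a * lg' y' := by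
  let f : Fx A' B' (dec P) →+ Fx A B (dec P) := (φ.comp (AddSubgroup.subtype _)).codRestrict _
    fun y g m => (e g y).symm.trans (congrArg φ (y.2 g m))
  obtain ⟨a, p, q⟩ := ex_lam (l := lg.comp f) fun y =>
    lg_iso h h2 h3 h' h2' h3' hc i hι k k' y (f y) rfl
  exact ⟨a, p, fun y' y m => (congrArg lg (Subtype.ext m)).trans (q y')⟩

end Vale.Agent.P014U.La
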