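import Vale.Agent.P014U.La.Tr
import Vale.Agent.P014U.La.El
import Vale.Agent.P014U.La.Gp
import Vale.Agent.P014U.La.Vel
import Vale.Agent.P014T.Ig.All

/-! # P014U, row KTI: zeta elements move along isogenies -/

set_option autoImplicit false
set_option linter.all false

open scoped Classical

noncomputable section

namespace Vale.Agent.P014U.La

open P027H Top
open X4S.Ga (K)
open Vale.Agent.P004F (hq)
open P004M.TE (Pt)
open P027M.K (TM)

variable [Pp]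

theorem ex_dt {A B A' B' : ℤ} (h : El A B) (h' : El A' B') (ae : Ae A B A' B') :
    ∃ φ ψ q τ a e, Tr.Dt h h' φ ψ q τ a e := by
  obtain ⟨Λ, l, l2, l3, -⟩ := exists_unif A B (by exact_mod_cast h)
  obtain ⟨Λ', l', l2', l3', -⟩ := exists_unif A' B' (by exact_mod_cast h')
  obtain ⟨n, n0, hn⟩ := P014T.Ig.isog l' l2' l3' l l2 l3 (ae.subset fun p b => ⟨b.1, b.2.symm⟩)
  have c0 : (n : ℚ) ≠ 0 := by have := pp_pos; positivity
  have le : ∀ z ∈ Λ, ((n : ℚ) : ℂ) * z ∈ Λ' := by simpa using hn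
  obtain ⟨φ, i, eφ, sj, fk, -⟩ := P014T.Ig.hom l' l2' l3' l l2 l3 c0 le
  obtain ⟨M0, ψ, iψ, eψ, c1, c2⟩ := ex_dual l l2 l3 l' l2' l3' c0 i
  have km : ∀ x, φ x = 0 → Nat.card φ.ker • x = 0 := fun x e => by rw [← c2, e, map_zero]
  obtain ⟨x, hx⟩ := P014T.La.Pe.per_iso l' l2' l3' l l2 l3 le
  obtain ⟨y, hy⟩ := P014T.La.Pe.per_iso l l2 l3 l' l2' l3' (P014T.Hi.le_of iψ)
  have p := P014T.La.Pe.per l l2 l3
  have p' := P014T.La.Pe.per l' l2' l3'
  have nr : (n : ℝ) ≠ 0 := by have := pp_pos; positivity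
  have xy : x * y = Nat.card φ.ker := by
    push_cast at hx hy
    rw [div_mul_eq_mul_div, div_eq_iff nr] at hy
    exact_mod_cast mul_right_cancel₀ p'.1.ne' (by linear_combination -hy - y * hx :
      (x * y : ℝ) * w0 A' B' = Nat.card φ.ker * w0 A' B')
  have x0 : x ≠ 0 := left_ne_zero_of_mul (xy.trans_ne (Nat.cast_ne_zero.2 M0))
  have x1 : (x : ℤ_[pp]) ≠ 0 := Int.cast_ne_zero.2 x0
  obtain ⟨v, hv⟩ := mk_exp M0 km
  obtain ⟨k, hk⟩ := pow_unbounded_of_one_lt ‖((x / n : ℚ) : K)‖ Bt.pr1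
  refine ⟨φ, ψ, x / n, y, (x : ℤ_[pp]).valuation, v + k, eφ, eψ, sj, ⟨_, M0, km⟩,
    fun z b => Ba.pow_up (Nat.le_add_right v k) (hv z b), ?_, ?_,
    div_ne_zero (Int.cast_ne_zero.2 x0) c0,
    hk.le.trans (pow_le_pow_right₀ Bt.pr1.le (Nat.le_add_left k v)), wp_adj _ _ ψ c1,
    fun P ι lg lg' hι b b' => ?_, fun c g' hc G' => ?_⟩
  · have a := mk_dl (hq h) (hq h') M0 km
    rw [dl_nrm, ← Int.cast_natCast, ← xy, Int.cast_mul, norm_mul] at a
    linear_combination pp ^ (x : ℤ_[pp]).valuation * a -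
      ‖(y : ℤ_[pp])‖ * Nat.card (Mk φ) * Ba.norm_val x1
  · push_cast at hx ⊢
    field_simp
    linear_combination hx
  · have d0 : (Nat.card φ.ker / n : ℚ) ≠ 0 := div_ne_zero (Nat.cast_ne_zero.2 M0) c0
    obtain ⟨t, a, e⟩ := lg_lam l l2 l3 l' l2' l3' d0 iψ eψ hι b b'
    have d1 : ((Nat.card φ.ker / n : ℚ) : K) ≠ 0 := Rat.cast_ne_zero.2 d0
    refine ⟨PadicInt.mkUnits (u := t / (Nat.card φ.ker / n : ℚ))
      (by rw [norm_div, a, div_self (norm_ne_zero_iff.2 d1)]), fun z z' r => ?_⟩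
    rw [e z' z r, PadicInt.coe_mul, PadicInt.mkUnits_eq, mul_assoc (t / _),
      show ((y : ℤ_[pp]) : K) * (x / n : ℚ) = (Nat.card φ.ker / n : ℚ) by
        rw [← Int.cast_natCast (Nat.card φ.ker), ← xy]; push_cast; ring, div_mul_cancel₀ _ d1]
  · obtain ⟨g, G⟩ := Bt.ex_gp h hc
    obtain ⟨u, e⟩ := h5 l' l2' l3' l l2 l3 i eφ p' p hc G G' hx
    let w := u * PadicInt.unitCoeff x1
    refine ⟨(w⁻¹ : ℤ_[pp]ˣ).1 • g, ⟨by rw [map_smul, G.1], fun z => G.2 ?_⟩, ?_⟩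
    · rw [← one_smul ℤ_[pp] g, ← w.mul_inv, mul_smul, TM.cp_smul, z, nsmul_zero]
    · rw [map_smul, show TM.map pp φ g = _ from TM.ext e, smul_smul]
      nth_rw 1 [PadicInt.unitCoeff_spec x1]
      rw [← mul_assoc u.1, ← Units.val_mul, Units.inv_mul_cancel_left]

/-- **row KTI** -/
theorem kti : KTI := fun _ _ _ _ h h' ae =>
  let ⟨_, _, _, _, _, _, d⟩ := ex_dt h h' ae
  d.kt ae

end Vale.Agent.P014U.La
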