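import Vale.Agent.P014T.La.Mc
import Vale.Agent.P014U.La.Ec
import Vale.Agent.P014U.Bt.Rk

/-! # P014U, block KTI: transport of the count along a map with finite kernel and cokernel -/

set_option autoImplicit false
set_option linter.all false

noncomputable section

namespace Vale.Agent.P014U.La.Mc

open Ba (Dv u Tk Tp sp mem_Tk)

export Vale.Agent.P014T.La.Mc (sp_comm)

variable [Pp] {G Z Z' : Type} [AddCommGroup G] [AddCommGroup Z] [AddCommGroup Z']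

theorem le_tk {H : AddSubgroup G} (t : ∀ x : G, x ∈ Tp G) {j : ℕ}
    (f : Nat.card ↥(H ⊓ Tk G j) ≠ 0) (h : Nat.card ↥(H ⊓ Tk G j) < pp ^ j) : H ≤ Tk G j :=
  fun p hp => by
    by_contra n
    have := Nat.finite_of_card_ne_zero f
    obtain ⟨i, a, b⟩ := Ba.ex_two ((Tp G).nsmul_mem (t p) (pp ^ j)) n
    obtain _ | j := j
    · exact absurd h (by have := Nat.pos_of_ne_zero f; rw [pow_zero]; omega)
    have c : pp ^ (j + 1) • pp ^ (i + 1) • p = 0 := by rwa [smul_comm]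
    have d : ¬ pp ^ j • pp ^ (i + 1) • p = 0 := by
      rwa [← mul_nsmul', ← pow_add, show j + (i + 1) = i + (j + 1) by omega, pow_add, mul_nsmul']
    have := AddSubgroup.card_le_of_le (AddSubgroup.zmultiples_le_of_mem (H := H ⊓ Tk G (j + 1))
      ⟨nsmul_mem hp _, c⟩)
    rw [Nat.card_zmultiples, addOrderOf_eq_prime_pow (p := pp) d c] at this
    omega

theorem tor2 (p : Dv × Dv) : p ∈ Tp (Dv × Dv) :=
  let ⟨i, a⟩ := Ba.dv_tor p.1
  let ⟨k, b⟩ := Ba.dv_tor p.2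
  ⟨i + k, Prod.ext (Ba.pow_up (Nat.le_add_right i k) a) (Ba.pow_up (Nat.le_add_left k i) b)⟩

theorem ker_le (x γ : Dv →+ Z) {b j : ℕ} (l : b < j) (h : (pp ^ 2) ^ j ≤ pp ^ b * sp (γ (u j)) (x (u j))) :
    (x.coprod γ).ker ≤ Tk (Dv × Dv) j := by
  have e := Ba.card_map (x.coprod γ) (Tk (Dv × Dv) j)
  rw [Ba.map_tk2, Ba.card_tk2] at e
  change _ * sp _ _ = _ at e
  rw [sp_comm] at e
  have n := e.trans_ne (by have := pp_pos; positivity)
  exact le_tk tor2 (left_ne_zero_of_mul n) ((Nat.le_of_mul_le_mul_right (e.le.trans h)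
    (Nat.pos_of_ne_zero (right_ne_zero_of_mul n))).trans_lt (Nat.pow_lt_pow_right one_lt l))

theorem sp_fin {a b : Z} {j : ℕ} (p : pp ^ j • a = 0) (q : pp ^ j • b = 0) :
    Finite ↥(AddSubgroup.zmultiples a ⊔ AddSubgroup.zmultiples b) := by
  have f {c : Z} (h : pp ^ j • c = 0) : (AddSubgroup.zmultiples c : Set Z).Finite :=
    (isOfFinAddOrder_iff_nsmul_eq_zero.2 ⟨_, by have := pp_pos; positivity, h⟩).finite_zmultiples
  refine Set.Finite.subset ((f p).add (f q)) fun z m => ?_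
  obtain ⟨s, a, t, b, e⟩ := AddSubgroup.mem_sup.1 m
  exact ⟨s, a, t, b, e⟩

theorem sp_le (f : Z →+ Z') {a b : Z} {a' : Z'} {i j : ℕ} (p : pp ^ j • a = 0) (q : pp ^ j • b = 0)
    (e : f a = pp ^ i • a') : sp a' (f b) ≤ pp ^ i * sp a b := by
  have := sp_fin p q
  set H := (AddSubgroup.zmultiples a ⊔ AddSubgroup.zmultiples b).map f
  have : Finite H := Finite.of_surjective _ (AddMonoidHom.addSubgroupMap_surjective _ _)
  have ma : pp ^ i • a' ∈ H := ⟨a, AddSubgroup.mem_sup_left (AddSubgroup.mem_zmultiples a), e⟩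
  have mb : f b ∈ H := ⟨b, AddSubgroup.mem_sup_right (AddSubgroup.mem_zmultiples b), rfl⟩
  refine le_trans (Nat.card_le_card_of_surjective (α := Fin (pp ^ i) × H) (fun s => ⟨s.1.1 • a' + s.2,
    add_mem (AddSubgroup.mem_sup_left (nsmul_mem (AddSubgroup.mem_zmultiples a') _)) ?_⟩) ?_) ?_
  · obtain ⟨z, m, r⟩ := s.2.2
    obtain ⟨_, ⟨v, rfl⟩, _, ⟨w, rfl⟩, rfl⟩ := AddSubgroup.mem_sup.1 m
    rw [← r, map_add, map_zsmul, map_zsmul, e]
    exact add_mem (AddSubgroup.mem_sup_left (zsmul_mem (nsmul_mem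
      (AddSubgroup.mem_zmultiples a') _) _))
      (AddSubgroup.mem_sup_right (zsmul_mem (AddSubgroup.mem_zmultiples _) _))
  · rintro ⟨z, m⟩
    obtain ⟨_, ⟨v, rfl⟩, _, ⟨w, rfl⟩, rfl⟩ := AddSubgroup.mem_sup.1 m
    have n : (0 : ℤ) < (pp : ℤ) ^ i := by have := pp_pos; positivity
    have n0 := Int.emod_nonneg v n.ne'
    refine ⟨(⟨(v % pp ^ i).toNat, by
      have := Int.emod_lt_of_pos v n
      zify
      omega⟩, ⟨(v / pp ^ i) • pp ^ i • a' + w • f b, add_mem (zsmul_mem ma _) (zsmul_mem mb _)⟩),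
      Subtype.ext ?_⟩
    change (v % pp ^ i).toNat • a' + ((v / pp ^ i) • pp ^ i • a' + w • f b) = v • a' + w • f b
    rw [← add_assoc, ← natCast_zsmul, ← natCast_zsmul, Int.toNat_of_nonneg n0, smul_smul, ← add_smul,
      Nat.cast_pow, Int.emod_add_ediv_mul]
  · rw [Nat.card_prod, Nat.card_eq_fintype_card, Fintype.card_fin]
    exact Nat.mul_le_mul_left _ (Nat.card_le_card_of_surjective _
      (AddMonoidHom.addSubgroupMap_surjective _ _))

/-- **the transport of the count** -/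
theorem mc (t : ∀ z : Z, z ∈ Tp Z) (t' : ∀ z : Z', z ∈ Tp Z') [Finite (Tk Z 1)]
    (low : ∀ j, pp ^ 2 * Nat.card (Tk Z j) ≤ Nat.card (Tk Z (j + 1))) (f : Z →+ Z') {X a e : ℕ}
    (X0 : X ≠ 0) (hf : kc (Ba.mu Z 1) ≤ pp ^ 2 * cc (Ba.mu Z 1) → cc f ≠ 0 ∧ kc f = X * cc f)
    (ke : f.ker ≤ Tk Z e) (γ : Dv →+ Z) (γ' : Dv →+ Z') (c : ∀ s, f (γ s) = γ' (pp ^ a • s))
    {w : Z} {m n b j : ℕ} {r : ℝ} (hw : pp ^ n • w = 0)
    (H : (pp ^ 2) ^ j ≤ pp ^ (b + a) * sp (γ (u j)) (pp ^ (n - j) • w) →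
      Nat.card (Tk Z n) ≤ (pp ^ 2) ^ n * pp ^ (b + a + m) ∧
      (sp (γ (u j)) (pp ^ (n - j) • w) * Nat.card (Tk Z j) : ℝ) = r)
    (l : b + (m + a + 2 * e) < j) (l' : j + b + (m + a + 2 * e) ≤ n)
    (h : (pp ^ 2) ^ j ≤ pp ^ b * sp (γ' (u j)) (pp ^ (n - j) • f w)) :
    Nat.card (Tk Z' n) ≤ (pp ^ 2) ^ n * pp ^ (b + (m + a + 2 * e)) ∧
      (sp (γ' (u j)) (pp ^ (n - j) • f w) * Nat.card (Tk Z' j) : ℝ) * X = pp ^ a * r := by
  have wj : pp ^ j • pp ^ (n - j) • w = 0 := by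
    rwa [← mul_nsmul', ← pow_add, Nat.add_sub_cancel' (by omega)]
  rw [← map_nsmul] at h ⊢
  have h0 : (pp ^ 2) ^ j ≤ pp ^ (b + a) * sp (γ (u j)) (pp ^ (n - j) • w) := by
    rw [pow_add, mul_assoc]
    exact h.trans (Nat.mul_le_mul_left _ (sp_le f (j := j)
      (by rw [← map_nsmul, mem_Tk.1 (Ba.u_mem j), map_zero]) wj (by rw [c, map_nsmul])))
  obtain ⟨h1, h2⟩ := H h0
  obtain ⟨k, kb, D, D0, hD⟩ := Bt.stab low h1 (by omega)
  have s : Nat.card (Tk Z (k + 1)) ≤ pp ^ 2 * Nat.card (Tk Z k) := by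
    rw [hD k le_rfl, hD _ k.le_succ, pow_succ']
    exact (mul_assoc ..).le
  obtain ⟨c0, hX⟩ := hf (Ba.cork_le t s)
  obtain ⟨x, hx⟩ := Ba.ex_hom t (Ba.pow_div t low s) (b := pp ^ (n - j) • w)
    ⟨pp ^ (n - j - k) • w, by
      rw [Ba.mu_apply, ← mul_nsmul', ← pow_add, Nat.add_sub_cancel' (by omega)]⟩ wj
  rw [← hx] at h h0 h2 ⊢
  have k1 := ker_le x γ (by omega) h0
  have k2 := ker_le (f.comp x) γ' (by omega) h
  have := Ba.fin_ker k1
  have := Ba.fin_ker k2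
  have e1 := Ba.ker_sp _ _ k1
  have e2 := Ba.ker_sp _ _ k2
  rw [sp_comm] at e1 e2
  have cp : f.comp (x.coprod γ) = (f.comp x).coprod (γ'.comp (Ba.mu Dv a)) :=
    AddMonoidHom.ext fun p => (map_add f _ _).trans (congrArg _ (c _))
  have e3 := chi_comp (x.coprod γ) c0 hX
  have e4 := card_comap (x.coprod γ) f.ker
  change kc (f.comp _) = _ at e4
  rw [cp, kc, Ba.ker_scale] at e3 e4
  rw [cc, cc, Ba.range_scale, Ba.lev t _ D0 (hD k le_rfl) (hD _ k.le_succ), kc] at e3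
  have e5 : Nat.card ↥(f.ker ⊓ (x.coprod γ).range) ≤ (pp ^ 2) ^ e := by
    have q := (Ba.card_range_tk Ba.dv2_half (x.coprod γ) e).trans (Ba.card_tk2 e)
    have := Nat.finite_of_card_ne_zero (q.trans_ne (by have := pp_pos; positivity))
    exact (AddSubgroup.card_le_of_le (le_inf inf_le_right (inf_le_left.trans ke))).trans q.le
  have dl : D ≤ pp ^ (b + a + m) :=
    Nat.le_of_mul_le_mul_left ((hD n (by omega)).ge.trans h1) (by have := pp_pos; positivity)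
  set D' := ((f.comp x).coprod γ').range.index with eD
  have i0 : 0 < Nat.card (x.coprod γ).ker := Nat.card_pos
  have i1 : 0 < Nat.card ((f.comp x).coprod γ').ker := Nat.card_pos
  have d0 : D' ≠ 0 := right_ne_zero_of_mul (e3.symm.trans_ne (by have := pp_pos; positivity))
  have d1 : D' ≤ pp ^ (b + (m + a + 2 * e)) := by
    refine Nat.le_of_mul_le_mul_left ?_ i0
    calc _ ≤ X * (Nat.card (x.coprod γ).ker * D') := Nat.le_mul_of_pos_left _ (by have := pp_pos; positivity)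
      _ = kc (x.coprod γ) * Nat.card ↥(f.ker ⊓ (x.coprod γ).range) * D := by
        rw [← mul_assoc, ← e3, e4]
      _ ≤ kc (x.coprod γ) * (pp ^ 2) ^ e * pp ^ (b + a + m) := by gcongr
      _ = _ := by rw [kc, show (pp ^ 2) ^ e = pp ^ (2 * e) from (pow_mul pp 2 e).symm]; ring
  have : Finite (Z' ⧸ ((f.comp x).coprod γ').range) := Nat.finite_of_card_ne_zero d0
  have q (i) : Nat.card (Tk (Z' ⧸ ((f.comp x).coprod γ').range) i) ≤ D' :=
    AddSubgroup.card_le_card_addGroup _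
  have tp : Tk (Z' ⧸ ((f.comp x).coprod γ').range) j = ⊤ := eq_top_iff.2 (le_tk
    (fun z => by
      obtain ⟨z, rfl⟩ := QuotientAddGroup.mk_surjective z
      exact (t' z).imp fun i h => by rw [← QuotientAddGroup.mk_nsmul, h, QuotientAddGroup.mk_zero])
    Nat.card_pos.ne' (by
      rw [top_inf_eq]
      exact ((q j).trans d1).trans_lt (Nat.pow_lt_pow_right one_lt l)))
  refine ⟨by rw [Ba.lev' ((f.comp x).coprod γ')]; exact Nat.mul_le_mul_left _ ((q n).trans d1), ?_⟩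
  rw [← h2, Ba.lev' ((f.comp x).coprod γ'), tp, AddSubgroup.card_top, hD j (by omega)]
  change (_ * (((pp ^ 2) ^ j * D' : ℕ) : ℝ)) * _ = _
  norm_cast
  refine Nat.eq_of_mul_eq_mul_left (Nat.mul_pos i0 i1) ?_
  change _ * sp _ (f _) = _ at e2
  zify at e1 e2 e3 ⊢
  linear_combination (X * Nat.card (x.coprod γ).ker * D' * (pp ^ 2) ^ j) * e2 - (pp ^ 2) ^ j * (pp ^ 2) ^ j * e3 -
    (pp ^ a * Nat.card ((f.comp x).coprod γ').ker * D * (pp ^ 2) ^ j) * e1

end Vale.Agent.P014U.La.Mc
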