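import Vale.Agent.P014T.La.Per
import Vale.Agent.P014U.La.Mc
import Vale.Agent.P014U.Bt.Top
import Vale.Agent.P014U.St

/-! # P014U, block KTI: transport of zeta elements along the data of an isogeny -/

set_option autoImplicit false
set_option linter.all false

open NumberField
open scoped Classical

noncomputable section

namespace Vale.Agent.P014U.La.Tr

open Vale.Agent.P022 (Qb GQ IsConj)
open Vale.Agent.P022K.G2 (In)
open Vale.Agent.P022D.W (dec)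
open Vale.Agent.P022E.GW (Ov)
open X4S.Ga (K O)
open X4S.Aq (O_of)
open Vale.Agent.P004F (hq)
open X4F.Rc (mq mq_eq mq_zero apx O_lv)
open X4M.TE hiding Qb GQ
open P027M.K (TM)
open Bt (dd Z0 Gp Lb gm)
open P014T.Wm (Fx)
open Lc (Lk)
open Ah (Ind am)
open Top

variable [Pp]

theorem iv_mul {l n : ℕ} {P : Ideal (𝓞 Qb)} (o : Ov l P) {z : GQ → GQ → K}
    (hz : ∀ g j, pp ^ n * z g j ∈ O) {t c : K} (e : Iv.iv P z = mq t) (hc : c ∈ O) :
    Iv.iv P (fun g j => c * z g j) = mq (c * t) := by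
  have ht : pp ^ n * t ∈ O := by
    have := Iv.mq_nat (pp ^ n) t
    rw [← e, ← map_nsmul, Iv.iv_congr o (w := 0) fun g _ j _ => O_of (hz g j) (by
      simp only [Iv.nsm]; simp), map_zero, mq_zero] at this
    simpa using this
  obtain ⟨m, hm⟩ := apx n hc
  rw [Iv.iv_congr o (w := m • z) fun g _ j _ => O_of (O_lv (hz g j) hm)
    (by simp only [Iv.nsm]; ring), map_nsmul, e, ← Iv.mq_nat, mq_eq]
  exact O_of (neg_mem (O_lv ht hm)) (by ring)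

variable {A B A' B' : ℤ} (h : El A B) (h' : El A' B')

/-- the data of an isogeny and of its dual -/
structure Dt (φ : Pt A B →+ Pt A' B') (ψ : Pt A' B' →+ Pt A B) (q : ℚ) (τ : ℤ_[pp]) (a e : ℕ) :
    Prop where
  eφ : ∀ g x, φ (ga g x) = ga g (φ x)
  eψ : ∀ g x, ψ (ga g x) = ga g (ψ x)
  sj : Function.Surjective φ
  km : ∃ m : ℕ, m ≠ 0 ∧ ∀ x, φ x = 0 → m • x = 0
  ke : ∀ x ∈ Mk φ, pp ^ e • x = 0
  nm : ‖τ‖ * Nat.card (Mk φ) = (pp : ℝ) ^ a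
  per : w0 A B = q * w0 A' B'
  q0 : q ≠ 0
  qn : ‖(q : K)‖ ≤ (pp : ℝ) ^ e
  adj : ∃ ε : ℤ_[pp]ˣ, ∀ n x y, pp ^ n • x = 0 → pp ^ n • y = 0 →
    mq (Ki.wp (hq h') n x (φ y)) = mq ((ε : ℤ_[pp]) * Ki.wp (hq h) n (ψ x) y)
  lg : ∀ P ι (lg : Fx A B (dec P) →+ K) (lg' : Fx A' B' (dec P) →+ K), Ind ι P → Lk ι lg →
    Lk ι lg' → ∃ v : ℤ_[pp]ˣ, ∀ (y : Fx A B (dec P)) (y' : Fx A' B' (dec P)), y.1 = ψ y'.1 →
      lg y = (v * τ : ℤ_[pp]) * q * lg' y'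
  gp : ∀ c g', IsConj c → Gp A' B' c g' → ∃ g, Gp A B c g ∧ TM.map pp φ g = (pp : ℤ_[pp]) ^ a • g'

variable {h h'} {φ : Pt A B →+ Pt A' B'} {ψ : Pt A' B' →+ Pt A B} {q : ℚ} {τ : ℤ_[pp]} {a e : ℕ}
  (d : Dt h h' φ ψ q τ a e)

include d

theorem Dt.rc {P : Ideal (𝓞 Qb)} {ι : Qb →+* ℂ_[pp]} {lg : Fx A B (dec P) →+ K}
    {lg' : Fx A' B' (dec P) →+ K} (o : Ov pp P) (hι : Ind ι P) (k : Lk ι lg) (k' : Lk ι lg')
    {m m' n : ℕ} (le : m ≤ m') {z : GQ → Pt A B} (t : ∀ g, pp ^ n • z g = 0) {σ : ℤ_[pp]} {μ : K}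
    {u : ℤ_[pp]ˣ} (r : Rc h P lg m n z ((u * σ : ℤ_[pp]) * μ)) :
    ∃ u' : ℤ_[pp]ˣ, Rc h' P lg' m' n (fun g => φ (z g)) ((u' * (σ * τ) : ℤ_[pp]) * (μ * q)) := by
  obtain ⟨ε, ad⟩ := d.adj
  obtain ⟨v, hv⟩ := d.lg P ι lg lg' hι k k'
  obtain ⟨i, rfl⟩ := Nat.exists_eq_add_of_le le
  refine ⟨ε * v * u, fun y y' b => ?_⟩
  let x : Fx A B (dec P) := ⟨ψ (pp ^ i • y.1), fun g s =>
    (d.eψ _ _).symm.trans (congrArg ψ ((pp ^ i • y).2 g s))⟩
  have c : (pp ^ m • x).1 = ψ (pp ^ (m + i) • y).1 := by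
    change pp ^ m • ψ _ = ψ (_ • y.1)
    rw [← map_nsmul, ← mul_nsmul', ← pow_add]
  have := iv_mul o (fun g j => Ki.wp_lev (hq h) n _ _)
    (r x (ψ y') (by rw [← map_nsmul, b]; exact c.symm)) (ε : ℤ_[pp]).2
  rw [hv _ _ c] at this
  refine (Iv.iv_congr o fun g s j _ => mq_eq.1 ?_).trans (this.trans (congrArg mq ?_))
  · have w := ad n _ _ (Ki.tor (ρ := ga) (D := dec P) (x := y')
      (by rw [b]; exact (pp ^ (m + i) • y).2) s) (Ki.tor_map (ρ := ga) (t j) g)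
    rwa [map_sub, d.eψ, d.eφ] at w
  · push_cast
    ring

theorem Dt.mc {T : Finset ℕ} (L : Lb A B T) (L' : Lb A' B' T) {c : GQ} (hc : IsConj c)
    {z : GQ → Pt A B} (hz : z ∈ Z0 A B T c) {m n : ℕ} (t : pp ^ n • z = 0)
    {r : ℕ → ℝ} (H : ∀ g, Gp A B c g → ∀ b j, b + m < j → j + b + m ≤ n →
      (pp ^ 2) ^ j ≤ pp ^ b * sg g n j z → cz A B T c n ≤ (pp ^ 2) ^ n * pp ^ (b + m) ∧
      (sg g n j z * cz A B T c j : ℝ) = r j)
    g' (G' : Gp A' B' c g') (b j : ℕ) (l : b + (m + a + 2 * e) < j)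
    (l' : j + b + (m + a + 2 * e) ≤ n) (s : (pp ^ 2) ^ j ≤ pp ^ b * sg g' n j fun g => φ (z g)) :
    cz A' B' T c n ≤ (pp ^ 2) ^ n * pp ^ (b + (m + a + 2 * e)) ∧
      (sg g' n j (fun g => φ (z g)) * cz A' B' T c j : ℝ) = r j * ‖τ‖ := by
  obtain ⟨g, G, eg⟩ := d.gp c g' hc G'
  obtain ⟨M, M0, km⟩ := d.km
  have gm {A B : ℤ} (L : Lb A B T) : Gm (ga : GQ → Pt A B →+ _) T :=
    ⟨ga_one, ga_mul, fun x => (ev_ga 1 x).mono fun _ e => e.trans (ga_one _),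
      fun x ⟨_, t⟩ _ m => L.lr.unr m t⟩
  have c4 {A B : ℤ} (h : El A B) : kc (mu (Pt A B) pp) = pp ^ 2 :=
    card_mul two_ne_zero (hq h) pp_ne
  have dv := mul_surj (L := Qb) two_ne_zero (hq h) pp_ne
  have X0 : Nat.card (Mk φ) ≠ 0 := fun e => by
    have := d.nm
    rw [e, Nat.cast_zero, mul_zero] at this
    exact absurd this (by have := pp_pos; positivity)
  have m1 : Ba.mu (Z0 A B T c) 1 = mu (Zf ga T c) pp := congrArg (mu (Zf ga T c)) (pow_one pp)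
  have := Nat.finite_of_card_ne_zero (α := Ba.Tk (Z0 A B T c) 1)
    ((congrArg kc m1).trans_ne (ge_two (gm L) L.lr.pr L.lr.two hc dv (c4 h) L.ax).k)
  have w := Mc.mc (Z := Z0 A B T c) (Z' := Z0 A' B' T c) zf_tw zf_tw (L.low h hc) (zm T c φ d.eφ)
    X0 (fun k => (lat (gm L) (gm L') L.lr.pr L.lr.two hc φ d.eφ d.sj M0 km dv (c4 h) (c4 h') L.ax L'.ax
      (.inl (by rw [m1] at k; exact k))).2.imp_right (·.1)) (e := e)
    (fun x k => Subtype.ext (funext fun g => d.ke _ ⟨x.2.2.2.1.imp fun _ u => u g,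
      congrFun (congrArg (·.1) k) g⟩)) (Bt.gm L.lr.bad G) (Bt.gm L'.lr.bad G') (a := a)
    (fun s => Subtype.ext (funext fun k => by
      obtain ⟨i, x, rfl⟩ := Bt.ex_dv s
      change φ (ga k (Bt.hm g _) - Bt.hm g _) = ga k (Bt.hm g' _) - Bt.hm g' _
      rw [map_sub, d.eφ, map_nsmul, Bt.hm_mk, Bt.hm_mk, ← TM.cp_map, map_smul, eg, smul_comm,
        ← TM.cp_pow_smul])) (w := ⟨z, hz⟩) (m := m) (n := n) (b := b) (j := j) (r := r j) (Subtype.ext t)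
    (by simp only [Bt.sp_coe, Bt.gm_u]; exact H g G (b + a) j (by omega) (by omega)) l l'
    (by simp only [Bt.sp_coe, Bt.gm_u]; exact s)
  simp only [Bt.sp_coe, Bt.gm_u] at w
  refine ⟨w.1, mul_right_cancel₀ (Nat.cast_ne_zero.2 X0) (w.2.trans ?_)⟩
  rw [mul_assoc, d.nm, mul_comm]

/-- **the transport** -/
theorem Dt.kt (ae : Ae A B A' B') :
    ∃ S₀, Pm S₀ ∧ ∀ S α, S₀ ⊆ S → Pm S → Kt h S α → Kt h' S α := by
  obtain ⟨U, pU, hU⟩ := Bt.ex_lb h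
  obtain ⟨U', pU', hU'⟩ := Bt.ex_lb h'
  refine ⟨U ∪ U' ∪ ae.toFinset, fun p m => ?_, fun S α sb pS ⟨c, P, ι, lg, σ, ρ, m, hc, o, hι, k, σ0,
    hρ, Z⟩ => ?_⟩
  · simp only [Finset.mem_union] at m
    exact m.elim (·.elim (pU p) (pU' p)) fun b => (ae.mem_toFinset.1 b).1
  simp only [Finset.union_subset_iff] at sb
  have lb {T : Finset ℕ} (s : S ⊆ T) (p : Pm T) : Lb A B T ∧ Lb A' B' T :=
    ⟨hU T (sb.1.1.trans s) p, hU' T (sb.1.2.trans s) p⟩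
  have ap : ∀ l : ℕ, l.Prime → l ∉ S → al A B l = al A' B' l := fun l p n => by_contra fun e =>
    n (sb.2 (ae.mem_toFinset.2 ⟨p, e⟩))
  have np : ∀ l : ℕ, l.Prime → l ∉ S → nq A' B' l = nq A B l := fun l p n => by
    rw [nq, nq, ap l p n]
  have d2 {l D : ℤ} (b : l ∣ 2 * D) : l ∣ 2 * pp * D := by
    rw [mul_right_comm]; exact b.mul_right _
  have lw {T : Finset ℕ} (s : S ⊆ T) (p : Pm T) (f) :
      P014T.Rk.Lw (al A B) (cS T f) = P014T.Rk.Lw (al A' B') (cS T f) :=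
    P014T.La.Pe.lw_eq (fun n c => P014T.La.Pe.al_eq p (fun l a b => (lb s p).1.lr.bad l a (d2 b))
      (fun l a b => (lb s p).2.lr.bad l a (d2 b))
      (fun l b n => ap l b fun k => n (s k)) c) f
  have pc : (w0 A B : ℂ) = q * w0 A' B' := by exact_mod_cast d.per
  obtain ⟨lg', k'⟩ := Lc.ex_lk (P014T.La.Pe.sI_ne h') (P014T.La.Pe.md_sI A' B') hι
  have le : m ≤ m + a + 2 * e := by omega
  refine ⟨c, P, ι, lg', σ * τ, ρ * q, m + a + 2 * e, hc, o, hι, k', mul_ne_zero σ0 fun e => ?_,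
    by rw [← lw subset_rfl pS, hρ, pc]; push_cast; ring, fun n => ?_⟩
  · have := d.nm
    rw [e, norm_zero, zero_mul] at this
    exact absurd this (by have := pp_pos; positivity)
  obtain ⟨z, mem, tor, ⟨u, r0⟩, r1, C, c1, c2, mc⟩ := Z n
  refine ⟨fun g => φ (z g), (zm S c φ d.eφ ⟨z, mem⟩).2, funext fun g => by
    change pp ^ n • φ _ = 0
    rw [← map_nsmul, show pp ^ n • z g = 0 from congrFun tor g, map_zero], ?_,
    fun e0 l W χ x n1 n2 n3 n4 => ?_, C, c1.trans le, fun p b => ⟨(c2 p b).1, (c2 p b).2.1,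
      fun v => (c2 p b).2.2 ((pow_dvd_pow (pp : ℤ) le).trans (np p (c2 p b).1 (c2 p b).2.1 ▸ v))⟩, ?_⟩
  · simpa only [Rat.cast_mul] using d.rc o hι k k' le (congrFun tor) r0
  · obtain ⟨z₁, t, j, y, μ, v, a1, a2, a3, a4, a5, a6, a7⟩ :=
      r1 ((mul_eq_zero.1 e0).resolve_right d.q0) l W χ x n1 (by omega) n3 n4
    obtain ⟨v', a8⟩ := d.rc o hι k k' le a1.tor a7
    refine ⟨fun g => φ (z₁ g), φ t, j, y * q, μ * q, v', ⟨a1.lc.comp φ, fun g => by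
      rw [← map_nsmul, a1.tor, map_zero]⟩, by rw [← map_nsmul, a2, map_zero],
      fun g b => (congrArg φ (a3 g b)).trans (map_zero φ), fun g b => ?_, ?_, ?_, a8⟩
    · simp only [a4, np l x.pr n1, map_add, map_nsmul, map_zsmul, map_sub, d.eφ]
    · rw [← lw (Finset.subset_insert l S) (Finset.forall_mem_insert .. |>.2 ⟨x.pr, pS⟩), ← a5, pc,
        map_mul, map_ratCast, mul_assoc]
    · rw [map_mul, map_mul, map_ratCast, map_ratCast, ← sub_mul, norm_mul, ← map_ratCast am,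
        Ah.nrm_am, mul_right_comm]
      refine (mul_le_mul a6 d.qn (norm_nonneg _) (by have := pp_pos; positivity)).trans ?_
      rw [← pow_add]
      exact pow_le_pow_right₀ Bt.pr1.le (by omega)
  · have pT : Pm (S ∪ C) := fun p b => (Finset.mem_union.1 b).elim (pS p) fun b => (c2 p b).1
    have L := lb Finset.subset_union_left pT
    have := d.mc L.1 L.2 hc (z := (∏ q ∈ C, nq A B q) • z) ((Z0 A B (S ∪ C) c).zsmul_mem ⟨mem.1,
      mem.2.1, mem.2.2.1, fun g ⟨l, n, b⟩ => mem.2.2.2.1 g ⟨l, by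
        simpa using fun s => n (by simpa using .inl s), b⟩, mem.2.2.2.2⟩ _)
      (by rw [smul_comm, tor, zsmul_zero]) mc
    rw [Finset.prod_congr rfl fun p b => np p (c2 p b).1 (c2 p b).2.1]
    rw [PadicInt.coe_mul, mul_right_comm, norm_mul, PadicInt.padic_norm_e_of_padicInt τ]
    simp only [Pi.smul_apply, map_zsmul, mul_assoc] at this ⊢
    exact this

end Vale.Agent.P014U.La.Tr
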